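import Mathlib

/-!
# ROW56 (S0077 + S0078): parameter choice and final numerics

Pure real-number lemmas.  From Poincaré `V ≤ s² I` and the family of bounds
`V ≤ (r s² / D^{r/(r-1)} + 4 r D² s (2/s)^{D-2} / √n) I` (`D ≥ 2`) we derive
`V ≤ 2^17 / log² n · I` (`r = 2`) and `V ≤ r 2^17 / (log n)^{r/(r-1)} · I` (`r ≥ 2`, `n ≥ 2`).
-/

namespace Crest.Agent.Row56.Num

open Real

lemma sqrt_eq_exp_half {x : ℝ} (hx : 0 < x) : √x = Real.exp (Real.log x / 2) := by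
  rw [Real.sqrt_eq_rpow, Real.rpow_def_of_pos hx]
  ring_nf

lemma two_div_pow_le {s L : ℝ} (hs : 0 < s) (k : ℕ) (hk : (k : ℝ) ≤ s * L / 128) :
    (2 / s) ^ k ≤ Real.exp (L / 64) := by
  have h1 : 2 / s ≤ Real.exp (2 / s) := by linarith [Real.add_one_le_exp (2 / s)]
  have h2 : (0 : ℝ) ≤ 2 / s := by positivity
  calc (2 / s) ^ k ≤ (Real.exp (2 / s)) ^ k := pow_le_pow_left₀ h2 h1 k
    _ = Real.exp (k * (2 / s)) := by rw [← Real.exp_nat_mul]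
    _ ≤ Real.exp (L / 64) := by
        apply Real.exp_le_exp.mpr
        have h3 : (k : ℝ) * (2 / s) ≤ (s * L / 128) * (2 / s) :=
          mul_le_mul_of_nonneg_right hk h2
        have h4 : (s * L / 128) * (2 / s) = L / 64 := by
          field_simp
          ring
        linarith

lemma exp_tail {L : ℝ} (hL : 0 < L) : Real.exp (-(31 * L / 64)) ≤ 437 / L ^ 4 := by
  have h := Real.pow_div_factorial_le_exp (x := 31 * L / 64) (by positivity) 4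
  have hf : ((4 : ℕ).factorial : ℝ) = 24 := by norm_num [Nat.factorial]
  rw [hf] at h
  rw [Real.exp_neg]
  have hpos : 0 < (31 * L / 64) ^ 4 / 24 := by positivity
  calc (Real.exp (31 * L / 64))⁻¹ ≤ ((31 * L / 64) ^ 4 / 24)⁻¹ := inv_anti₀ hpos h
    _ ≤ 437 / L ^ 4 := by
        have hL4 : 0 < L ^ 4 := by positivity
        rw [inv_eq_one_div, div_le_div_iff₀ hpos hL4]
        have : (31 * L / 64) ^ 4 / 24 = L ^ 4 * (31 ^ 4 / 64 ^ 4 / 24) := by ring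
        rw [this]
        nlinarith [hL4]

/-- The second term is negligible for `D = ⌈sL/128⌉`, as soon as `sL > 256`. -/
lemma second_term {n : ℕ} (hn : 2 ≤ n) {s : ℝ} (hs0 : 0 < s) (hs : s ≤ 1 / 2)
    (hB : 256 < s * Real.log n) :
    ((⌈s * Real.log n / 128⌉₊ : ℕ) : ℝ) ^ 2 * s * (2 / s) ^ (⌈s * Real.log n / 128⌉₊ - 2) / √(n : ℝ)
      ≤ 1 / (64 * Real.log n ^ 2) := by
  set L := Real.log n with hLdef
  set D := ⌈s * L / 128⌉₊ with hD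
  have hnpos : (0 : ℝ) < n := by positivity
  have hL : 0 < L := by
    by_contra h
    rw [not_lt] at h
    nlinarith
  have hD1 : (D : ℝ) < s * L / 128 + 1 := Nat.ceil_lt_add_one (by positivity)
  have hD0 : s * L / 128 ≤ (D : ℝ) := Nat.le_ceil _
  have hD2 : (2 : ℝ) ≤ (D : ℝ) := by linarith
  have hD2' : 2 ≤ D := by exact_mod_cast hD2
  have hDm : ((D - 2 : ℕ) : ℝ) ≤ s * L / 128 := by
    rw [Nat.cast_sub hD2']
    push_cast
    linarith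
  have hpow := two_div_pow_le (L := L) hs0 (D - 2) hDm
  have hDle : (D : ℝ) ≤ L / 128 := by nlinarith
  have hDsq : (D : ℝ) ^ 2 * s ≤ (L / 128) ^ 2 * (1 / 2) := by
    have : (D : ℝ) ^ 2 ≤ (L / 128) ^ 2 := pow_le_pow_left₀ (by positivity) hDle 2
    exact mul_le_mul this hs hs0.le (by positivity)
  rw [sqrt_eq_exp_half hnpos, ← hLdef]
  have hexp : Real.exp (L / 64) / Real.exp (L / 2) = Real.exp (-(31 * L / 64)) := by
    rw [← Real.exp_sub]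
    congr 1
    ring
  calc (D : ℝ) ^ 2 * s * (2 / s) ^ (D - 2) / Real.exp (L / 2)
      ≤ (L / 128) ^ 2 * (1 / 2) * Real.exp (L / 64) / Real.exp (L / 2) := by
        apply div_le_div_of_nonneg_right _ (Real.exp_pos _).le
        exact mul_le_mul hDsq hpow (by positivity) (by positivity)
    _ = (L / 128) ^ 2 * (1 / 2) * Real.exp (-(31 * L / 64)) := by
        rw [mul_div_assoc, hexp]
    _ ≤ (L / 128) ^ 2 * (1 / 2) * (437 / L ^ 4) :=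
        mul_le_mul_of_nonneg_left (exp_tail hL) (by positivity)
    _ ≤ 1 / (64 * L ^ 2) := by
        have : (L / 128) ^ 2 * (1 / 2) * (437 / L ^ 4) = (437 / 32768) / L ^ 2 := by
          field_simp
          ring
        rw [this, div_le_div_iff₀ (by positivity) (by positivity)]
        nlinarith [sq_nonneg L]

/-- **r = 2**, explicit constant `2^17`. -/
theorem num_two (n : ℕ) (hn : 2 ≤ n) (s V I : ℝ) (hs0 : 0 < s) (hs : s ≤ 1 / 2) (hI : 0 ≤ I)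
    (hP : V ≤ s ^ 2 * I)
    (hT : ∀ D : ℕ, 2 ≤ D →
      V ≤ (2 * s ^ 2 / (D : ℝ) ^ 2 + 8 * (D : ℝ) ^ 2 * s * (2 / s) ^ (D - 2) / √(n : ℝ)) * I) :
    V ≤ 2 ^ 17 / Real.log n ^ 2 * I := by
  have hL : 0 < Real.log n := Real.log_pos (by exact_mod_cast hn)
  set L := Real.log n with hLdef
  have hL2 : 0 < L ^ 2 := by positivity
  by_cases hA : s * L ≤ 256
  · refine hP.trans (mul_le_mul_of_nonneg_right ?_ hI)
    rw [le_div_iff₀ hL2]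
    have h0 : 0 ≤ s * L := by positivity
    nlinarith
  · rw [not_le] at hA
    have hsec := second_term hn hs0 hs hA
    rw [← hLdef] at hsec
    set D := ⌈s * L / 128⌉₊ with hD
    have hD0 : s * L / 128 ≤ (D : ℝ) := Nat.le_ceil _
    have hD2 : (2 : ℝ) ≤ (D : ℝ) := by linarith
    have hD2' : 2 ≤ D := by exact_mod_cast hD2
    refine (hT D hD2').trans (mul_le_mul_of_nonneg_right ?_ hI)
    have hfirst : 2 * s ^ 2 / (D : ℝ) ^ 2 ≤ 2 ^ 15 / L ^ 2 := by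
      have hDpos : (0 : ℝ) < (D : ℝ) ^ 2 := by positivity
      rw [div_le_div_iff₀ hDpos hL2]
      have h1 : (s * L / 128) ^ 2 ≤ (D : ℝ) ^ 2 := pow_le_pow_left₀ (by positivity) hD0 2
      nlinarith
    have hsecond : 8 * (D : ℝ) ^ 2 * s * (2 / s) ^ (D - 2) / √(n : ℝ) ≤ 1 / L ^ 2 := by
      have : 8 * (D : ℝ) ^ 2 * s * (2 / s) ^ (D - 2) / √(n : ℝ)
          = 8 * ((D : ℝ) ^ 2 * s * (2 / s) ^ (D - 2) / √(n : ℝ)) := by ring
      rw [this]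
      calc 8 * ((D : ℝ) ^ 2 * s * (2 / s) ^ (D - 2) / √(n : ℝ)) ≤ 8 * (1 / (64 * L ^ 2)) :=
            mul_le_mul_of_nonneg_left hsec (by norm_num)
        _ ≤ 1 / L ^ 2 := by
            rw [mul_one_div, div_le_div_iff₀ (by positivity) hL2]
            nlinarith
    calc 2 * s ^ 2 / (D : ℝ) ^ 2 + 8 * (D : ℝ) ^ 2 * s * (2 / s) ^ (D - 2) / √(n : ℝ)
        ≤ 2 ^ 15 / L ^ 2 + 1 / L ^ 2 := add_le_add hfirst hsecond
      _ ≤ 2 ^ 17 / L ^ 2 := by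
          rw [← add_div]
          exact div_le_div_of_nonneg_right (by norm_num) hL2.le

/-- general `r ≥ 2`, under `1 ≤ log n`, constant `r * 2^17`. -/
theorem num_general_aux (r : ℕ) (hr : 2 ≤ r) (n : ℕ) (hn : 2 ≤ n) (hL1 : 1 ≤ Real.log n)
    (s V I : ℝ) (hs0 : 0 < s)
    (hs : s ≤ 1 / 2) (hI : 0 ≤ I) (hP : V ≤ s ^ 2 * I)
    (hT : ∀ D : ℕ, 2 ≤ D →
      V ≤ ((r : ℝ) * s ^ 2 / (D : ℝ) ^ ((r : ℝ) / ((r : ℝ) - 1))
        + 4 * (r : ℝ) * (D : ℝ) ^ 2 * s * (2 / s) ^ (D - 2) / √(n : ℝ)) * I) :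
    V ≤ ((r : ℝ) * 2 ^ 17) / Real.log n ^ ((r : ℝ) / ((r : ℝ) - 1)) * I := by
  have hr' : (2 : ℝ) ≤ (r : ℝ) := by exact_mod_cast hr
  set ρ : ℝ := (r : ℝ) / ((r : ℝ) - 1) with hρ
  have hρ1 : 0 < ρ := by
    rw [hρ]
    apply div_pos <;> linarith
  have hρ2 : ρ ≤ 2 := by
    rw [hρ, div_le_iff₀ (by linarith)]
    linarith
  set L := Real.log n with hLdef
  have hL : 0 < L := by linarith
  have hL2 : 0 < L ^ 2 := by positivity
  have hLρ : 0 < L ^ ρ := Real.rpow_pos_of_pos hL ρ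
  have hLρ2 : L ^ ρ ≤ L ^ 2 := by
    have := Real.rpow_le_rpow_of_exponent_le hL1 hρ2
    rwa [Real.rpow_two] at this
  -- `c / L^2 ≤ c / L^ρ`
  have hcmp : ∀ c : ℝ, 0 ≤ c → c / L ^ 2 ≤ c / L ^ ρ := fun c hc =>
    div_le_div_of_nonneg_left hc hLρ hLρ2
  by_cases hA : s * L ≤ 256
  · refine hP.trans (mul_le_mul_of_nonneg_right ?_ hI)
    have h1 : s ^ 2 ≤ 2 ^ 16 / L ^ 2 := by
      rw [le_div_iff₀ hL2]
      have h0 : 0 ≤ s * L := by positivity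
      nlinarith
    refine h1.trans ((hcmp _ (by norm_num)).trans ?_)
    apply div_le_div_of_nonneg_right _ hLρ.le
    nlinarith
  · rw [not_le] at hA
    have hsec := second_term hn hs0 hs hA
    rw [← hLdef] at hsec
    set D := ⌈s * L / 128⌉₊ with hD
    have hD0 : s * L / 128 ≤ (D : ℝ) := Nat.le_ceil _
    have hD2 : (2 : ℝ) ≤ (D : ℝ) := by linarith
    have hD2' : 2 ≤ D := by exact_mod_cast hD2
    refine (hT D hD2').trans (mul_le_mul_of_nonneg_right ?_ hI)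
    have hfirst : (r : ℝ) * s ^ 2 / (D : ℝ) ^ ρ ≤ ((r : ℝ) * 2 ^ 14) / L ^ ρ := by
      have hbase : 0 < s * L / 128 := by positivity
      have h1 : (s * L / 128) ^ ρ ≤ (D : ℝ) ^ ρ := Real.rpow_le_rpow hbase.le hD0 hρ1.le
      have h2 : (s * L / 128) ^ ρ = s ^ ρ * L ^ ρ / 128 ^ ρ := by
        rw [Real.div_rpow (by positivity) (by norm_num), Real.mul_rpow hs0.le hL.le]
      have h3 : s ^ 2 ≤ s ^ ρ := by
        have := Real.rpow_le_rpow_of_exponent_ge hs0 (by linarith : s ≤ 1) hρ2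
        rwa [Real.rpow_two] at this
      have h4 : (128 : ℝ) ^ ρ ≤ 2 ^ 14 := by
        have := Real.rpow_le_rpow_of_exponent_le (by norm_num : (1 : ℝ) ≤ 128) hρ2
        rw [Real.rpow_two] at this
        linarith
      have hsρ : 0 < s ^ ρ := Real.rpow_pos_of_pos hs0 ρ
      have h128 : 0 < (128 : ℝ) ^ ρ := Real.rpow_pos_of_pos (by norm_num) ρ
      have hDρ : 0 < (D : ℝ) ^ ρ := Real.rpow_pos_of_pos (by linarith) ρ
      rw [div_le_div_iff₀ hDρ hLρ]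
      -- r s² L^ρ ≤ r 2^14 D^ρ
      have h5 : s ^ ρ * L ^ ρ ≤ 128 ^ ρ * (D : ℝ) ^ ρ := by
        rw [h2, div_le_iff₀ h128] at h1
        linarith
      have h6 : s ^ 2 * L ^ ρ ≤ 2 ^ 14 * (D : ℝ) ^ ρ :=
        calc s ^ 2 * L ^ ρ ≤ s ^ ρ * L ^ ρ := mul_le_mul_of_nonneg_right h3 hLρ.le
          _ ≤ 128 ^ ρ * (D : ℝ) ^ ρ := h5
          _ ≤ 2 ^ 14 * (D : ℝ) ^ ρ := mul_le_mul_of_nonneg_right h4 hDρ.le
      calc (r : ℝ) * s ^ 2 * L ^ ρ = (r : ℝ) * (s ^ 2 * L ^ ρ) := by ring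
        _ ≤ (r : ℝ) * (2 ^ 14 * (D : ℝ) ^ ρ) := mul_le_mul_of_nonneg_left h6 (by linarith)
        _ = (r : ℝ) * 2 ^ 14 * (D : ℝ) ^ ρ := by ring
    have hsecond : 4 * (r : ℝ) * (D : ℝ) ^ 2 * s * (2 / s) ^ (D - 2) / √(n : ℝ)
        ≤ (r : ℝ) / L ^ ρ := by
      have : 4 * (r : ℝ) * (D : ℝ) ^ 2 * s * (2 / s) ^ (D - 2) / √(n : ℝ)
          = 4 * (r : ℝ) * ((D : ℝ) ^ 2 * s * (2 / s) ^ (D - 2) / √(n : ℝ)) := by ring
      rw [this]
      calc 4 * (r : ℝ) * ((D : ℝ) ^ 2 * s * (2 / s) ^ (D - 2) / √(n : ℝ))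
          ≤ 4 * (r : ℝ) * (1 / (64 * L ^ 2)) :=
            mul_le_mul_of_nonneg_left hsec (by linarith)
        _ ≤ (r : ℝ) / L ^ 2 := by
            rw [mul_one_div, div_le_div_iff₀ (by positivity) hL2]
            nlinarith
        _ ≤ (r : ℝ) / L ^ ρ := hcmp _ (by linarith)
    calc (r : ℝ) * s ^ 2 / (D : ℝ) ^ ρ
          + 4 * (r : ℝ) * (D : ℝ) ^ 2 * s * (2 / s) ^ (D - 2) / √(n : ℝ)
        ≤ ((r : ℝ) * 2 ^ 14) / L ^ ρ + (r : ℝ) / L ^ ρ := add_le_add hfirst hsecond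
      _ ≤ ((r : ℝ) * 2 ^ 17) / L ^ ρ := by
          rw [← add_div]
          apply div_le_div_of_nonneg_right _ hLρ.le
          nlinarith

/-- **general r** (`r ≥ 2`, `n ≥ 2`), constant `r * 2^17`. -/
theorem num_general (r : ℕ) (hr : 2 ≤ r) (n : ℕ) (hn : 2 ≤ n) (s V I : ℝ) (hs0 : 0 < s)
    (hs : s ≤ 1 / 2) (hI : 0 ≤ I) (hP : V ≤ s ^ 2 * I)
    (hT : ∀ D : ℕ, 2 ≤ D →
      V ≤ ((r : ℝ) * s ^ 2 / (D : ℝ) ^ ((r : ℝ) / ((r : ℝ) - 1))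
        + 4 * (r : ℝ) * (D : ℝ) ^ 2 * s * (2 / s) ^ (D - 2) / √(n : ℝ)) * I) :
    V ≤ ((r : ℝ) * 2 ^ 17) / Real.log n ^ ((r : ℝ) / ((r : ℝ) - 1)) * I := by
  by_cases hL1 : 1 ≤ Real.log n
  · exact num_general_aux r hr n hn hL1 s V I hs0 hs hI hP hT
  · rw [not_le] at hL1
    have hr' : (2 : ℝ) ≤ (r : ℝ) := by exact_mod_cast hr
    have hL : 0 < Real.log n := Real.log_pos (by exact_mod_cast hn)
    have hρ1 : 0 < (r : ℝ) / ((r : ℝ) - 1) := by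
      apply div_pos <;> linarith
    have hLρ : 0 < Real.log n ^ ((r : ℝ) / ((r : ℝ) - 1)) := Real.rpow_pos_of_pos hL _
    have hLρ1 : Real.log n ^ ((r : ℝ) / ((r : ℝ) - 1)) ≤ 1 :=
      Real.rpow_le_one hL.le hL1.le hρ1.le
    refine hP.trans (mul_le_mul_of_nonneg_right ?_ hI)
    rw [le_div_iff₀ hLρ]
    have hs2 : s ^ 2 ≤ 1 := by nlinarith
    calc s ^ 2 * Real.log n ^ ((r : ℝ) / ((r : ℝ) - 1)) ≤ 1 * 1 :=
          mul_le_mul hs2 hLρ1 hLρ.le (by norm_num)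
      _ ≤ (r : ℝ) * 2 ^ 17 := by nlinarith

/-- `num_two` in the shape with `D + 1` (`D ≥ 1`), as announced on the board (post 910). -/
theorem params_two (n : ℕ) (hn : 2 ≤ n) (s V I : ℝ) (hs0 : 0 < s) (hs : s ≤ 1 / 2) (hI : 0 ≤ I)
    (hP : V ≤ s ^ 2 * I)
    (hT : ∀ D : ℕ, 1 ≤ D →
      V ≤ (2 * s ^ 2 / ((D : ℝ) + 1) ^ 2
        + 4 * 2 * ((D : ℝ) + 1) ^ 2 * s * (2 / s) ^ (D - 1) / √(n : ℝ)) * I) :
    V ≤ 2 ^ 17 / Real.log n ^ 2 * I := by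
  refine num_two n hn s V I hs0 hs hI hP ?_
  intro D hD
  obtain ⟨k, rfl⟩ : ∃ k, D = k + 1 := ⟨D - 1, by omega⟩
  have h := hT k (by omega)
  have e1 : k + 1 - 2 = k - 1 := by omega
  rw [e1]
  push_cast
  have e2 : (4 : ℝ) * 2 = 8 := by norm_num
  rw [e2] at h
  exact h

/-- `num_general` in the shape with `D + 1` (`D ≥ 1`), explicit constant `r * 2^17`. -/
theorem params_gen_explicit (r : ℕ) (hr : 2 ≤ r) (n : ℕ) (hn : 2 ≤ n) (s V I : ℝ) (hs0 : 0 < s)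
    (hs : s ≤ 1 / 2) (hI : 0 ≤ I) (hP : V ≤ s ^ 2 * I)
    (hT : ∀ D : ℕ, 1 ≤ D →
      V ≤ ((r : ℝ) * s ^ 2 / ((D : ℝ) + 1) ^ ((r : ℝ) / ((r : ℝ) - 1))
        + 4 * (r : ℝ) * ((D : ℝ) + 1) ^ 2 * s * (2 / s) ^ (D - 1) / √(n : ℝ)) * I) :
    V ≤ ((r : ℝ) * 2 ^ 17) / Real.log n ^ ((r : ℝ) / ((r : ℝ) - 1)) * I := by
  refine num_general r hr n hn s V I hs0 hs hI hP ?_
  intro D hD
  obtain ⟨k, rfl⟩ : ∃ k, D = k + 1 := ⟨D - 1, by omega⟩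
  have h := hT k (by omega)
  have e1 : k + 1 - 2 = k - 1 := by omega
  rw [e1]
  push_cast
  exact h

/-- Existential form, exactly the shape of the right-hand side of S0078. -/
theorem params_gen (r : ℕ) (hr : 2 ≤ r) :
    ∃ C : ℝ, ∀ n : ℕ, r ≤ n → ∀ s V I : ℝ, 0 < s → s ≤ 1 / 2 → 0 ≤ I → V ≤ s ^ 2 * I →
      (∀ D : ℕ, 1 ≤ D →
        V ≤ ((r : ℝ) * s ^ 2 / ((D : ℝ) + 1) ^ ((r : ℝ) / ((r : ℝ) - 1))
          + 4 * (r : ℝ) * ((D : ℝ) + 1) ^ 2 * s * (2 / s) ^ (D - 1) / √(n : ℝ)) * I) →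
      V ≤ C / Real.log n ^ ((r : ℝ) / ((r : ℝ) - 1)) * I :=
  ⟨(r : ℝ) * 2 ^ 17, fun n hn s V I hs0 hs hI hP hT =>
    params_gen_explicit r hr n (by omega) s V I hs0 hs hI hP hT⟩

/-- `σ = √(p(1-p))` lies in `(0, 1/2]`. -/
theorem sqrt_var_pos {p : ℝ} (hp0 : 0 < p) (hp1 : p < 1) : 0 < √(p * (1 - p)) :=
  Real.sqrt_pos.mpr (mul_pos hp0 (by linarith))

theorem sqrt_var_le_half (p : ℝ) : √(p * (1 - p)) ≤ 1 / 2 := by
  rw [show (1 / 2 : ℝ) = √(1 / 4) by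
    rw [show (1 / 4 : ℝ) = (1 / 2) ^ 2 by norm_num, Real.sqrt_sq (by norm_num)]]
  apply Real.sqrt_le_sqrt
  nlinarith [sq_nonneg (p - 1 / 2)]

/-- `(r m)^{r-1} ≥ D^r` (naturals) gives `m ≥ D^{r/(r-1)} / r` (reals). -/
theorem big_card_ge (r : ℕ) (hr : 2 ≤ r) (D m : ℕ) (h : D ^ r ≤ (r * m) ^ (r - 1)) :
    (D : ℝ) ^ ((r : ℝ) / ((r : ℝ) - 1)) / (r : ℝ) ≤ (m : ℝ) := by
  have hr' : (2 : ℝ) ≤ (r : ℝ) := by exact_mod_cast hr
  have hr1 : (0 : ℝ) < (r : ℝ) - 1 := by linarith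
  rw [div_le_iff₀ (by linarith)]
  have hcast : ((r - 1 : ℕ) : ℝ) = (r : ℝ) - 1 := by
    rw [Nat.cast_sub (by omega)]
    norm_num
  have h' : (D : ℝ) ^ r ≤ ((m : ℝ) * (r : ℝ)) ^ (r - 1) := by
    have : ((D ^ r : ℕ) : ℝ) ≤ (((r * m) ^ (r - 1) : ℕ) : ℝ) := by exact_mod_cast h
    push_cast at this
    rwa [mul_comm (r : ℝ) (m : ℝ)] at this
  have hD0 : (0 : ℝ) ≤ (D : ℝ) := by positivity
  have hm0 : (0 : ℝ) ≤ (m : ℝ) * (r : ℝ) := by positivity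
  calc (D : ℝ) ^ ((r : ℝ) / ((r : ℝ) - 1)) = ((D : ℝ) ^ (r : ℝ)) ^ (((r : ℝ) - 1)⁻¹) := by
        rw [← Real.rpow_mul hD0, div_eq_mul_inv]
    _ = ((D : ℝ) ^ r) ^ (((r : ℝ) - 1)⁻¹) := by rw [Real.rpow_natCast]
    _ ≤ (((m : ℝ) * (r : ℝ)) ^ (r - 1)) ^ (((r : ℝ) - 1)⁻¹) :=
        Real.rpow_le_rpow (by positivity) h' (by positivity)
    _ = (m : ℝ) * (r : ℝ) := by
        rw [← Real.rpow_natCast, hcast, ← Real.rpow_mul hm0, mul_inv_cancel₀ hr1.ne',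
          Real.rpow_one]

end Crest.Agent.Row56.Num
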